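import Vale.Agent.P253K97.Defs
import Vale.Agent.P211W98.LC
import Vale.Agent.P253.Bdl.B1

/-! Coordinate vector fields of a chart. -/

set_option maxSynthPendingDepth 3
set_option linter.unusedSectionVars false

namespace Vale.Agent.P253K

open scoped Manifold ContDiff Topology
open Bundle Filter VectorField IsManifold Vale.Agent.P211 Vale.Agent.P211.NN Vale.Agent.P211Z
  Vale.Agent.P253.Mfd

noncomputable section

variable {E : Type} [NormedAddCommGroup E] [NormedSpace ℂ E]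

section hol

variable {M : Type} [TopologicalSpace M] [ChartedSpace E M]
  {N : Type} [TopologicalSpace N] [ChartedSpace E N]

theorem dif_J {f : M → N} {x : M} (h : MDifferentiableAt 𝓘(ℂ, E) 𝓘(ℂ, E) f x) (v : Tan E x) :
    dif E f x (J v) = J (dif E f x v) := by
  let L : E →L[ℂ] E := mfderiv 𝓘(ℂ, E) 𝓘(ℂ, E) f x
  have h1 : HasMFDerivAt 𝓘(ℂ, E) 𝓘(ℂ, E) f x L := h.hasMFDerivAt
  have h2 : HasMFDerivAt 𝓘(ℝ, E) 𝓘(ℝ, E) f x (L.restrictScalars ℝ) :=
    ⟨h1.1, HasFDerivWithinAt.restrictScalars ℝ h1.2⟩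
  have h3 : ∀ w : Tan E x, dif E f x w = L w := fun w => by
    unfold dif
    rw [h2.mfderiv]
    rfl
  rw [h3, h3]
  exact L.map_smul Complex.I v

theorem J_add {x : M} (v w : Tan E x) : J (v + w) = J v + J w :=
  smul_add (M := ℂ) (A := E) Complex.I v w

theorem J_smul {x : M} (c : ℝ) (v : Tan E x) : J (c • v) = c • J v :=
  smul_comm (M := ℂ) (N := ℝ) (α := E) Complex.I c v

theorem J_J {x : M} (v : Tan E x) : J (J v) = -v := by
  change (Complex.I • Complex.I • (show E from v) : E) = -(show E from v)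
  rw [smul_smul, Complex.I_mul_I, neg_smul, one_smul]

theorem chart_J [IsManifold 𝓘(ℂ, E) 1 M] {e : OpenPartialHomeomorph M E}
    (he : e ∈ maximalAtlas 𝓘(ℂ, E) 1 M) {x : M} (hx : x ∈ e.source) (v : Tan E x) :
    dif E e x (J v) = J (dif E e x v) :=
  dif_J (((contMDiffOn_of_mem_maximalAtlas he).contMDiffAt
    (e.open_source.mem_nhds hx)).mdifferentiableAt (by simp)) v

theorem symm_J [IsManifold 𝓘(ℂ, E) 1 M] {e : OpenPartialHomeomorph M E}
    (he : e ∈ maximalAtlas 𝓘(ℂ, E) 1 M) {z : E} (hz : z ∈ e.target) (v : E) :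
    dif E e.symm z (Complex.I • v : E) = J (dif E e.symm z v) :=
  dif_J (((contMDiffOn_symm_of_mem_maximalAtlas he).contMDiffAt
    (e.open_target.mem_nhds hz)).mdifferentiableAt (by simp)) v

end hol

variable [FiniteDimensional ℂ E] {M : Type} [MetricSpace M] [ChartedSpace E M] [RealSmooth E M]
  {e : OpenPartialHomeomorph M E} {x : M} {z : E}

/-- the constant field -/
def kf (v : E) : Field E E := fun _ => v

/-- the coordinate field -/
def cf (e : OpenPartialHomeomorph M E) (v : E) : Field E M := pull e (kf v)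

theorem ld (he : e ∈ maximalAtlas 𝓘(ℝ, E) ∞ M) (hx : x ∈ e.source) :
    IsLocalDiffeomorphAt 𝓘(ℝ, E) 𝓘(ℝ, E) ∞ e x :=
  ⟨⟨e.toPartialEquiv, e.open_source, e.open_target, contMDiffOn_of_mem_maximalAtlas he,
    contMDiffOn_symm_of_mem_maximalAtlas he⟩, hx, fun _ _ => rfl⟩

theorem sm_const (v z : E) : Sm (kf v) z :=
  (contMDiff_vectorSpace_iff_contDiff (V := fun z : E => (v : TangentSpace 𝓘(ℝ, E) z))).2
    contDiff_const z

theorem sm_cf (he : e ∈ maximalAtlas 𝓘(ℝ, E) ∞ M) (hx : x ∈ e.source) (v : E) :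
    Sm (cf e v) x := Sm.pull (ld he hx) (sm_const v _)

theorem dif_cf (he : e ∈ maximalAtlas 𝓘(ℝ, E) ∞ M) (hx : x ∈ e.source) (v : E) :
    dif E e x (cf e v x) = v := dm_pull (ld he hx) (kf v)

theorem dif_inj (he : e ∈ maximalAtlas 𝓘(ℝ, E) ∞ M) (hx : x ∈ e.source) :
    Function.Injective (dif E e x) := (inv_of_ld (ld he hx)).injective

theorem cf_dif (he : e ∈ maximalAtlas 𝓘(ℝ, E) ∞ M) (hx : x ∈ e.source) (w : Tan E x) :
    cf e (dif E e x w) x = w := dif_inj he hx (dif_cf he hx _)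

theorem cf_symm (he : e ∈ maximalAtlas 𝓘(ℝ, E) ∞ M) (hz : z ∈ e.target) (v : E) :
    cf e v (e.symm z) = dif E e.symm z v := by
  apply dif_inj he (e.map_target hz)
  rw [dif_cf he (e.map_target hz)]
  exact (congrArg (fun T => T v) ((mdifferentiable_chart he).comp_symm_deriv hz)).symm

theorem cf_smul (he : e ∈ maximalAtlas 𝓘(ℝ, E) ∞ M) (hx : x ∈ e.source) (c : ℝ) (v : E) :
    cf e (c • v) x = c • cf e v x := by
  apply dif_inj he hx
  rw [map_smul, dif_cf he hx, dif_cf he hx]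
  rfl

theorem cf_I [IsManifold 𝓘(ℂ, E) 1 M] (he : e ∈ maximalAtlas 𝓘(ℂ, E) 1 M) (hx : x ∈ e.source)
    (v : E) : cf e (Complex.I • v) x = J (cf e v x) := by
  have he' := mem_maximalAtlas_real he
  apply dif_inj he' hx
  rw [chart_J he hx, dif_cf he' hx, dif_cf he' hx]
  rfl

theorem cf_bracket (he : e ∈ maximalAtlas 𝓘(ℝ, E) ∞ M) (hx : x ∈ e.source) (u v : E) :
    mlieBracket 𝓘(ℝ, E) (cf e u) (cf e v) x = 0 := by
  unfold cf
  rw [pull_bracket (ld he hx) (sm_const u _).md (sm_const v _).md]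
  have h : mlieBracket 𝓘(ℝ, E) (kf u) (kf v) (e x) = 0 := by
    rw [← mlieBracketWithin_univ, mlieBracketWithin_eq_lieBracketWithin]
    change fderivWithin ℝ (fun _ : E => v) Set.univ (e x) u
      - fderivWithin ℝ (fun _ : E => u) Set.univ (e x) v = 0
    simp
  change (dm E e x).inverse (mlieBracket 𝓘(ℝ, E) (kf u) (kf v) (e x)) = 0
  rw [h, map_zero]

/-- derivative of a function along a coordinate field -/
theorem d_cf (he : e ∈ maximalAtlas 𝓘(ℝ, E) ∞ M) (hx : x ∈ e.source) {f : M → ℝ} {g : E → ℝ}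
    (hg : DifferentiableAt ℝ g (e x)) (h : ∀ᶠ y in 𝓝 x, f y = g (e y)) (u : E) :
    mvfderiv 𝓘(ℝ, E) f x (cf e u x) = fderiv ℝ g (e x) u := by
  have h1 : HasMFDerivAt 𝓘(ℝ, E) 𝓘(ℝ) (g ∘ e) x ((fderiv ℝ g (e x)).comp (dif E e x)) :=
    hg.hasFDerivAt.hasMFDerivAt.comp x ((ld he hx).mdifferentiableAt (by simp)).hasMFDerivAt
  have h2 : HasMFDerivAt 𝓘(ℝ, E) 𝓘(ℝ) f x ((fderiv ℝ g (e x)).comp (dif E e x)) :=
    h1.congr_of_eventuallyEq h
  have h3 : mvfderiv 𝓘(ℝ, E) f x (cf e u x) = fderiv ℝ g (e x) (dif E e x (cf e u x)) := by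
    unfold mvfderiv
    rw [h2.mfderiv]
    rfl
  rw [h3, dif_cf he hx]

theorem exists_cf (he : e ∈ maximalAtlas 𝓘(ℝ, E) ∞ M) (hx : x ∈ e.source) (v : E) :
    ∃ S : Vec E M, ∀ᶠ y in 𝓝 x, S y = cf e v y :=
  cut_section (E := E) (e.open_source.mem_nhds hx) fun _ hy => (sm_cf he hy v).contMDiffWithinAt

variable [Met E M]

theorem inner_cf (he : e ∈ maximalAtlas 𝓘(ℝ, E) ∞ M) (hx : x ∈ e.source) (v w : E) :
    inner ℝ (cf e v x) (cf e w x) = chartMetric e (e x) v w := by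
  have h : ∀ y, y = x → inner ℝ (cf e v x) (cf e w x) = inner ℝ (cf e v y) (cf e w y) := by
    rintro y rfl
    rfl
  rw [h _ (e.left_inv hx), cf_symm he (e.map_source hx), cf_symm he (e.map_source hx)]
  rfl

end

end Vale.Agent.P253K
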