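import Vale.Agent.P253K97.Chart

/-! Christoffel symbols, and the algebra of the Kähler condition. -/

set_option maxSynthPendingDepth 3
set_option linter.unusedSectionVars false

namespace Vale.Agent.P253K

open scoped Manifold ContDiff Topology
open Bundle Filter VectorField IsManifold Complex Vale.Agent.P211 Vale.Agent.P211.NN
  Vale.Agent.P211Z Vale.Agent.P253.Mfd

noncomputable section

variable {E : Type} [NormedAddCommGroup E] [NormedSpace ℂ E]

section alg

variable {G : E →L[ℝ] E →L[ℝ] ℝ} {A : E →L[ℝ] E →L[ℝ] E →L[ℝ] ℝ} {Γ : E → E → E}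

theorem II (v : E) : I • I • v = -v := by rw [smul_smul, I_mul_I, neg_smul, one_smul]

theorem skew {B : E →L[ℝ] E →L[ℝ] ℝ} (h : ∀ v w, B (I • v) (I • w) = B v w) (v w : E) :
    B v (I • w) = -B (I • v) w := by
  rw [← h v, II, map_neg]

theorem par_of_closed (hp : ∀ v, v ≠ 0 → 0 < G v v) (hG : ∀ v w, G (I • v) (I • w) = G v w)
    (hA : ∀ u v w, A u (I • v) (I • w) = A u v w)
    (hΓ : ∀ u v w, 2 * G (Γ u v) w = A u v w + A v u w - A w u v)
    (hc : ∀ a b c, A a (I • b) c - A b (I • a) c + A c (I • a) b = 0) (u v : E) :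
    Γ u (I • v) = I • Γ u v := by
  have h : ∀ w, G (Γ u (I • v) - I • Γ u v) w = 0 := by
    intro w
    have h1 := hΓ u (I • v) w
    have h2 := hΓ u v (I • w)
    have h3 := skew hG (Γ u v) w
    have h4 := hc u v w
    have h5 := hc u (I • v) (I • w)
    rw [hA u, hA (I • v), hA (I • w)] at h5
    have h6 := skew (hA u) v w
    have h7 := skew (hA v) u w
    have h8 := skew (hA w) u v
    rw [map_sub, sub_apply]
    linarith
  by_contra hne
  exact (hp _ (sub_ne_zero.2 hne)).ne' (h _)

theorem closed_of_par (hG : ∀ v w, G (I • v) (I • w) = G v w)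
    (hAs : ∀ u v w, A u v w = A u w v)
    (hΓ : ∀ u v w, 2 * G (Γ u v) w = A u v w + A v u w - A w u v)
    (hJ : ∀ u v, Γ u (I • v) = I • Γ u v) (a b c : E) :
    A a (I • b) c - A b (I • a) c + A c (I • a) b = 0 := by
  have m : ∀ u v w, A u v w = G (Γ u v) w + G (Γ u w) v := fun u v w => by
    have h1 := hΓ u v w
    have h2 := hΓ u w v
    have h3 := hAs u w v
    linarith
  have s : ∀ u v w, G (Γ u v) w = G (Γ v u) w := fun u v w => by
    have h1 := hΓ u v w
    have h2 := hΓ v u w
    have h3 := hAs w u v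
    linarith
  have k : ∀ u v w, G (Γ u (I • v)) w = -G (Γ u v) (I • w) := fun u v w => by
    rw [hJ, skew hG, neg_neg]
  rw [m a, m b, m c, k, k, k, s a b, s c a, s c b]
  ring

end alg

variable [FiniteDimensional ℂ E] {M : Type} [MetricSpace M] [ChartedSpace E M]
  [IsManifold 𝓘(ℂ, E) 1 M] [RealSmooth E M] [Met E M] [SmoothMet E M]
  {e : OpenPartialHomeomorph M E} {x : M} {z : E} {cov : Conn E M}

/-- the Christoffel symbols -/
def gam (cov : Conn E M) (e : OpenPartialHomeomorph M E) (x : M) (u v : E) : E :=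
  dif E e x (cov (cf e v) x (cf e u x))

theorem cf_gam (he : e ∈ maximalAtlas 𝓘(ℝ, E) ∞ M) (hx : x ∈ e.source) (u v : E) :
    cf e (gam cov e x u v) x = cov (cf e v) x (cf e u x) := cf_dif he hx _

theorem cd_G (he : e ∈ maximalAtlas 𝓘(ℝ, E) ∞ M) (hz : z ∈ e.target) (v w : E) :
    ContDiffAt ℝ ∞ (fun y => chartMetric e y v w) z :=
  (contDiffOn_chartMetric he v w).contDiffAt (e.open_target.mem_nhds hz)

theorem dg_cf (he : e ∈ maximalAtlas 𝓘(ℝ, E) ∞ M) (hx : x ∈ e.source) (u v w : E) :
    P211W.dg (cf e u) (cf e v) (cf e w) x = fderiv ℝ (fun y => chartMetric e y v w) (e x) u := by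
  refine d_cf he hx ((cd_G he (e.map_source hx) v w).differentiableAt (by simp)) ?_ u
  filter_upwards [e.open_source.mem_nhds hx] with y hy using inner_cf he hy v w

theorem koszul_cf (h : IsLeviCivita cov) (he : e ∈ maximalAtlas 𝓘(ℝ, E) ∞ M) (hx : x ∈ e.source)
    (u v w : E) : 2 * inner ℝ (cov (cf e v) x (cf e u x)) (cf e w x) =
      fderiv ℝ (fun y => chartMetric e y v w) (e x) u
        + fderiv ℝ (fun y => chartMetric e y u w) (e x) v
        - fderiv ℝ (fun y => chartMetric e y u v) (e x) w := by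
  rw [P211W.koszul h.torsion h.metric (sm_cf he hx u).md (sm_cf he hx v).md (sm_cf he hx w).md]
  unfold P211W.kz P211W.bg
  rw [cf_bracket he hx, cf_bracket he hx, cf_bracket he hx, dg_cf he hx, dg_cf he hx,
    dg_cf he hx, inner_zero_left, inner_zero_left, inner_zero_left]
  ring

theorem isChris (h : IsLeviCivita cov) (he : e ∈ maximalAtlas 𝓘(ℝ, E) ∞ M) (hx : x ∈ e.source) :
    IsChristoffel e (e x) (gam cov e x) := fun u v w => by
  rw [← inner_cf he hx, cf_gam he hx, koszul_cf h he hx]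

theorem herm_chart (hH : Hermitian E M) (he : e ∈ maximalAtlas 𝓘(ℂ, E) 1 M) (hz : z ∈ e.target)
    (v w : E) : chartMetric e z (I • v) (I • w) = chartMetric e z v w := by
  have h := hH _ (dif E e.symm z v) (dif E e.symm z w)
  rwa [← symm_J he hz, ← symm_J he hz] at h

theorem herm_A (hH : Hermitian E M) (he : e ∈ maximalAtlas 𝓘(ℂ, E) 1 M) (hz : z ∈ e.target)
    (u v w : E) : fderiv ℝ (chartG e) z u (I • v) (I • w) = fderiv ℝ (chartG e) z u v w := by
  have he' := mem_maximalAtlas_real he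
  have h : (fun y => chartMetric e y (I • v) (I • w)) =ᶠ[𝓝 z] fun y => chartMetric e y v w := by
    filter_upwards [e.open_target.mem_nhds hz] with y hy using herm_chart hH he hy v w
  rw [← fderiv_chartMetric he' hz, ← fderiv_chartMetric he' hz, h.fderiv_eq]

theorem symm_A (he : e ∈ maximalAtlas 𝓘(ℝ, E) ∞ M) (hz : z ∈ e.target) (u v w : E) :
    fderiv ℝ (chartG e) z u v w = fderiv ℝ (chartG e) z u w v := by
  have h : (fun y => chartMetric e y v w) = fun y => chartMetric e y w v :=
    funext fun y => chartG_symm e y v w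
  rw [← fderiv_chartMetric he hz, ← fderiv_chartMetric he hz, h]

theorem chris_A (he : e ∈ maximalAtlas 𝓘(ℝ, E) ∞ M) (hz : z ∈ e.target) {Γ : E → E → E}
    (h : IsChristoffel e z Γ) (u v w : E) : 2 * chartG e z (Γ u v) w =
      fderiv ℝ (chartG e) z u v w + fderiv ℝ (chartG e) z v u w - fderiv ℝ (chartG e) z w u v := by
  rw [← fderiv_chartMetric he hz, ← fderiv_chartMetric he hz, ← fderiv_chartMetric he hz]
  exact h u v w

end

end Vale.Agent.P253K
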