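import Mathlib.Geometry.Manifold.VectorBundle.CovariantDerivative.Torsion
import Mathlib.Geometry.Manifold.VectorBundle.CovariantDerivative.Metric
import Mathlib.Geometry.Manifold.Riemannian.Basic
import Mathlib.Analysis.Calculus.DifferentialForm.Basic
import Mathlib.LinearAlgebra.Complex.FiniteDimensional
import Mathlib.Analysis.Complex.Basic

/-! Kähler manifolds, their Levi-Civita connection and curvature tensor. -/

namespace Vale.Agent.P253K

open scoped Manifold ContDiff Topology ENNReal
open Bundle Filter VectorField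

noncomputable section

/-- 4-linear forms on a real vector space -/
abbrev Lin4 (V : Type) [AddCommGroup V] [Module ℝ V] : Type :=
  V →ₗ[ℝ] V →ₗ[ℝ] V →ₗ[ℝ] V →ₗ[ℝ] ℝ

/-- the value `R(a, b, c, d)` -/
def ev {V : Type} [AddCommGroup V] [Module ℝ V] (R : Lin4 V) (a b c d : V) : ℝ := R a b c d

variable (E : Type) [NormedAddCommGroup E] [NormedSpace ℂ E]
  {M : Type} [TopologicalSpace M] [ChartedSpace E M]

/-- the real tangent space at `x` -/
abbrev Tan (x : M) : Type := TangentSpace 𝓘(ℝ, E) x

/-- the real differential of `f` at `x` -/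
abbrev dif {N : Type} [TopologicalSpace N] [ChartedSpace E N] (f : M → N) (x : M) :
    Tan E x →L[ℝ] Tan E (f x) := mfderiv 𝓘(ℝ, E) 𝓘(ℝ, E) f x

variable {E} in
/-- The complex structure `J`: multiplication by `i` on the tangent space at `x`. -/
def J {x : M} (v : Tan E x) : Tan E x := (Complex.I • (show E from v) : E)

variable (M)

/-- `J` is multiplication by `i` in every holomorphic chart. -/
def JChart : Prop :=
  ∀ e ∈ IsManifold.maximalAtlas 𝓘(ℂ, E) 1 M, ∀ x ∈ e.source, ∀ v : Tan E x,
    dif E e x (J v) = J (dif E e x v)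

/-- `M` is a smooth real manifold. -/
abbrev RealSmooth : Prop := IsManifold 𝓘(ℝ, E) ∞ M

/-- scalar products on the tangent spaces -/
abbrev Met : Type := RiemannianBundle fun x : M => Tan E x

/-- connections on the tangent bundle -/
abbrev Conn [RealSmooth E M] : Type := CovariantDerivative 𝓘(ℝ, E) E (Tan E : M → Type)

/-- smooth vector fields -/
abbrev Vec [RealSmooth E M] : Type := Cₛ^∞⟮𝓘(ℝ, E); E, (Tan E : M → Type)⟯

/-- fields of 4-linear forms on the tangent spaces -/
abbrev Four : Type := (x : M) → Lin4 (Tan E x)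

variable [Met E M]

/-- The scalar products depend smoothly on the point. -/
abbrev SmoothMet [RealSmooth E M] : Prop :=
  IsContMDiffRiemannianBundle 𝓘(ℝ, E) ∞ E fun x : M => Tan E x

/-- `g` is Hermitian. -/
def Hermitian : Prop := ∀ (x : M) (v w : Tan E x), inner ℝ (J v) (J w) = inner ℝ v w

/-- The form `ω(v, w) = g(J v, w)` is closed: in the chart `e` at any point `p` it is given by a
2-form `η` with `dη = 0` on the image of `e`. -/
def Closed : Prop :=
  ∀ p : M, ∃ η : E → E [⋀^Fin 2]→L[ℝ] ℝ, ∀ z ∈ (chartAt E p).target,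
    DifferentiableAt ℝ η z ∧ extDeriv η z = 0 ∧ ∀ v w : E, η z ![v, w] =
      inner ℝ (J (dif E (chartAt E p).symm z v)) (dif E (chartAt E p).symm z w)

/-- `M` is complete: every Cauchy sequence for the Riemannian distance converges. -/
def Complete : Prop :=
  ∀ u : ℕ → M, (∀ ε : ℝ≥0∞, 0 < ε → ∃ N, ∀ i ≥ N, ∀ j ≥ N,
    Manifold.riemannianEDist 𝓘(ℝ, E) (u i) (u j) < ε) → ∃ x, Tendsto u atTop (𝓝 x)

variable {E M}

/-- Positive holomorphic bisectional curvature. -/
def PosBisec (Rm : Four E M) : Prop :=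
  ∀ (x : M) (u v : Tan E x), ‖u‖ = 1 → ‖v‖ = 1 →
    0 < ev (Rm x) u v v u + ev (Rm x) u (J v) (J v) u

variable [RealSmooth E M]

/-- `g(∇_X ∇_Y Z - ∇_Y ∇_X Z - ∇_[X,Y] Z, W)` at `x` -/
def curv (cov : Conn E M) (X Y Z W : (q : M) → Tan E q) (x : M) : ℝ :=
  inner ℝ (cov (fun q => cov Z q (Y q)) x (X x) - cov (fun q => cov Z q (X q)) x (Y x) -
    cov Z x (mlieBracket 𝓘(ℝ, E) X Y x)) (W x)

/-- `Rm` is the curvature tensor of the connection. -/
def IsCurv (cov : Conn E M) (Rm : Four E M) : Prop :=
  ∀ (X Y Z W : Vec E M) (x : M), ev (Rm x) (X x) (Y x) (Z x) (W x) = curv cov X Y Z W x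

omit [Met E M] in
/-- The two connections have the same values on smooth vector fields. -/
def Agree (cov' cov : Conn E M) : Prop := ∀ Y : Vec E M, cov' Y = cov Y

omit [Met E M] in
/-- `J` is parallel: `∇_v (J Y) = J ∇_v Y`. -/
def ParallelJ (cov : Conn E M) : Prop :=
  ∀ (Y : Vec E M) (x : M) (v : Tan E x), cov (fun q => J (Y q)) x v = J (cov Y x v)

/-- A Levi-Civita connection: smooth, torsion free and compatible with the metric. -/
structure IsLeviCivita [FiniteDimensional ℂ E] [SmoothMet E M] (cov : Conn E M) : Prop where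
  smooth : cov.ContMDiffCovariantDerivative ∞
  torsion : cov.torsion = 0
  metric : CovariantDerivative.IsMetricCompatible (V := (Tan E : M → Type)) cov

end

end Vale.Agent.P253K
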