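import Vale.Agent.P253K97.Chris

/-! `ω` is closed if and only if `J` is parallel. -/

set_option maxSynthPendingDepth 3
set_option linter.unusedSectionVars false

namespace Vale.Agent.P253K

open scoped Manifold ContDiff Topology
open Bundle Filter VectorField IsManifold Complex Vale.Agent.P211 Vale.Agent.P211.NN
  Vale.Agent.P211Z Vale.Agent.P253.Mfd

noncomputable section

variable {E : Type} [NormedAddCommGroup E] [NormedSpace ℂ E]

theorem ext_three {η : E → E [⋀^Fin 2]→L[ℝ] ℝ} {z : E} (h : DifferentiableAt ℝ η z) (a b c : E) :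
    extDeriv η z ![a, b, c] = fderiv ℝ (fun y => η y ![b, c]) z a
      - fderiv ℝ (fun y => η y ![a, c]) z b + fderiv ℝ (fun y => η y ![a, b]) z c := by
  have e0 : Fin.removeNth 0 ![a, b, c] = ![b, c] := by
    funext i
    fin_cases i <;> rfl
  have e1 : Fin.removeNth 1 ![a, b, c] = ![a, c] := by
    funext i
    fin_cases i <;> rfl
  have e2 : Fin.removeNth 2 ![a, b, c] = ![a, b] := by
    funext i
    fin_cases i <;> rfl
  rw [extDeriv_apply h, Fin.sum_univ_three, e0, e1, e2]
  simp [sub_eq_add_neg]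

/-- the alternating part of a bilinear form -/
def alt (E : Type) [NormedAddCommGroup E] [NormedSpace ℂ E] :
    (E →L[ℝ] E →L[ℝ] ℝ) →L[ℝ] E [⋀^Fin 2]→L[ℝ] ℝ :=
  (2⁻¹ : ℝ) • (ContinuousAlternatingMap.alternatizeUncurryFinCLM ℝ E ℝ).comp
    (ContinuousLinearMap.compL ℝ E (E →L[ℝ] ℝ) (E [⋀^Fin 1]→L[ℝ] ℝ)
      (ContinuousAlternatingMap.ofSubsingletonLIE (𝕜 := ℝ) (E := E) (F := ℝ)
        (0 : Fin 1)).toContinuousLinearEquiv.toContinuousLinearMap)

theorem alt_apply (B : E →L[ℝ] E →L[ℝ] ℝ) (v w : E) : alt E B ![v, w] = 2⁻¹ * (B v w - B w v) := by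
  change (2⁻¹ : ℝ) • ContinuousAlternatingMap.alternatizeUncurryFin (𝕜 := ℝ) (E := E) (F := ℝ)
    (n := 1) _ ![v, w] = _
  rw [ContinuousAlternatingMap.alternatizeUncurryFin_apply, Fin.sum_univ_two]
  change (2⁻¹ : ℝ) * ((-1) ^ 0 • B v w + (-1) ^ 1 • B w v) = _
  simp [sub_eq_add_neg]

/-- multiplication by `i` as a real linear map -/
def mulI (E : Type) [NormedAddCommGroup E] [NormedSpace ℂ E] : E →L[ℝ] E :=
  (I • ContinuousLinearMap.id ℂ E).restrictScalars ℝ

variable [FiniteDimensional ℂ E] {M : Type} [MetricSpace M] [ChartedSpace E M]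
  [IsManifold 𝓘(ℂ, E) 1 M] [RealSmooth E M]
  {e : OpenPartialHomeomorph M E} {x : M} {z : E} {cov : Conn E M}

theorem md_J {Y : Field E M} (h : Md Y x) : Md (fun q => J (Y q)) x := by
  have h1 := (mdifferentiableAt_section 𝓘(ℝ, E) Y).1 h
  refine (mdifferentiableAt_section 𝓘(ℝ, E) _).2 ?_
  refine ((mulI E).mdifferentiableAt.comp x h1).congr_of_eventuallyEq ?_
  filter_upwards [chart_source_mem_nhds E x] with y hy
  let t := trivializationAt E (TangentSpace 𝓘(ℝ, E) : M → Type) x
  have h2 : ∀ w : Tan E y, (t ⟨y, w⟩).2 = dif E (chartAt E x) y w := fun w => by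
    have h3 := congrArg (fun L => L w)
      (TangentBundle.continuousLinearMapAt_trivializationAt (I := 𝓘(ℝ, E)) hy)
    have h4 : t.continuousLinearMapAt ℝ y w = (t ⟨y, w⟩).2 := by
      rw [t.continuousLinearMapAt_apply ℝ, t.coe_linearMapAt_of_mem hy]
    exact h4.symm.trans h3
  change (t ⟨y, J (Y y)⟩).2 = I • (t ⟨y, Y y⟩).2
  rw [h2, h2, chart_J (chart_mem_maximalAtlas x) hy]
  rfl

theorem cov_congr {X Y : Field E M} (hX : Md X x) (h : ∀ᶠ y in 𝓝 x, Y y = X y) :
    cov Y x = cov X x :=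
  cov.isCovariantDerivativeOnUniv.congr_of_eventuallyEq (hX.congr h) hX univ_mem h

theorem cov_cf_I (he : e ∈ maximalAtlas 𝓘(ℂ, E) 1 M) (hx : x ∈ e.source) (v : E) :
    cov (fun q => J (cf e v q)) x = cov (cf e (I • v)) x := by
  refine cov_congr (sm_cf (mem_maximalAtlas_real he) hx _).md ?_
  filter_upwards [e.open_source.mem_nhds hx] with y hy using (cf_I he hy v).symm

variable [Met E M] [SmoothMet E M]

theorem gam_I (hP : ParallelJ cov) (he : e ∈ maximalAtlas 𝓘(ℂ, E) 1 M) (hx : x ∈ e.source)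
    (u v : E) : gam cov e x u (I • v) = I • gam cov e x u v := by
  have he' := mem_maximalAtlas_real he
  obtain ⟨S, hS⟩ := exists_cf he' hx v
  have h1 : cov S x = cov (cf e v) x := cov_congr (sm_cf he' hx v).md hS
  have h2 : cov (fun q => J (S q)) x = cov (fun q => J (cf e v q)) x :=
    cov_congr (md_J (sm_cf he' hx v).md) (hS.mono fun y hy => by rw [hy])
  unfold gam
  rw [← cov_cf_I he hx, ← h2, hP, h1, chart_J he hx]
  rfl

theorem par_of_gam (he : e ∈ maximalAtlas 𝓘(ℂ, E) 1 M) (hx : x ∈ e.source)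
    (h : ∀ u v, gam cov e x u (I • v) = I • gam cov e x u v) {Y : Field E M} (hY : Md Y x)
    (v : Tan E x) : cov (fun q => J (Y q)) x v = J (cov Y x v) := by
  have he' := mem_maximalAtlas_real he
  have hc := cov.isCovariantDerivativeOnUniv
  have hT : TensorialAt 𝓘(ℝ, E) E
      (fun Y : Field E M => cov (fun q => J (Y q)) x v - J (cov Y x v)) x := by
    refine ⟨fun {f σ} hf hσ => ?_, fun {σ τ} hσ hτ => ?_⟩
    · have e1 : (fun q => J ((f • σ) q)) = f • fun q => J (σ q) :=
        funext fun q => J_smul (f q) (σ q)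
      rw [e1, hc.leibniz (md_J hσ) hf, hc.leibniz hσ hf]
      simp only [add_apply, smul_apply, ContinuousLinearMap.smulRight_apply, J_add, J_smul,
        smul_sub]
      abel
    · have e1 : (fun q => J ((σ + τ) q)) = (fun q => J (σ q)) + fun q => J (τ q) :=
        funext fun q => J_add (σ q) (τ q)
      rw [e1, hc.add (md_J hσ) (md_J hτ), hc.add hσ hτ]
      simp only [add_apply, J_add]
      abel
  have h1 := hT.pointwise hY (sm_cf he' hx (dif E e x (Y x))).md (cf_dif he' hx _).symm
  have h2 : ∀ u w : E, cov (fun q => J (cf e w q)) x (cf e u x)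
      - J (cov (cf e w) x (cf e u x)) = 0 := fun u w => by
    rw [cov_cf_I he hx, ← cf_gam he' hx, ← cf_gam he' hx, h, cf_I he hx, sub_self]
  have h3 := h2 (dif E e x v) (dif E e x (Y x))
  rw [cf_dif he' hx v] at h3
  exact sub_eq_zero.1 (h1.trans h3)

theorem omega_chart (he : e ∈ maximalAtlas 𝓘(ℂ, E) 1 M) (hz : z ∈ e.target) (v w : E) :
    inner ℝ (J (dif E e.symm z v)) (dif E e.symm z w) = chartMetric e z (I • v) w := by
  rw [← symm_J he hz]
  rfl

theorem d_eta (he : e ∈ maximalAtlas 𝓘(ℝ, E) ∞ M) (hz : z ∈ e.target)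
    {η : E → E [⋀^Fin 2]→L[ℝ] ℝ} (hd : DifferentiableAt ℝ η z)
    (h : ∀ y ∈ e.target, ∀ v w, η y ![v, w] = chartMetric e y (I • v) w) (a b c : E) :
    extDeriv η z ![a, b, c] = fderiv ℝ (chartG e) z a (I • b) c
      - fderiv ℝ (chartG e) z b (I • a) c + fderiv ℝ (chartG e) z c (I • a) b := by
  have k : ∀ u v w, fderiv ℝ (fun y => η y ![v, w]) z u = fderiv ℝ (chartG e) z u (I • v) w := by
    intro u v w
    have h1 : (fun y => η y ![v, w]) =ᶠ[𝓝 z] fun y => chartMetric e y (I • v) w := by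
      filter_upwards [e.open_target.mem_nhds hz] with y hy using h y hy v w
    rw [h1.fderiv_eq, fderiv_chartMetric he hz]
  rw [ext_three hd, k, k, k]

theorem par_of_cl (h : IsLeviCivita cov) (hH : Hermitian E M) (hC : Closed E M) :
    ParallelJ cov := by
  intro Y x v
  have he : chartAt E x ∈ maximalAtlas 𝓘(ℂ, E) 1 M := chart_mem_maximalAtlas x
  have he' := mem_maximalAtlas_real he
  have hx := mem_chart_source E x
  have hz := mem_chart_target E x
  obtain ⟨η, hη⟩ := hC x
  refine par_of_gam he hx (par_of_closed (fun v hv => chartG_pos he' hz v hv)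
    (herm_chart hH he hz) (herm_A hH he hz) (chris_A he' hz (isChris h he' hx))
    fun a b c => ?_) (VF.mdiff Y x) v
  rw [← d_eta he' hz (hη _ hz).1 fun y hy v w => by rw [(hη y hy).2.2, omega_chart he hy],
    (hη _ hz).2.1]
  rfl

theorem cl_of_par (h : IsLeviCivita cov) (hH : Hermitian E M) (hP : ParallelJ cov) :
    Closed E M := by
  intro p
  have he : chartAt E p ∈ maximalAtlas 𝓘(ℂ, E) 1 M := chart_mem_maximalAtlas p
  have he' := mem_maximalAtlas_real he
  generalize chartAt E p = e at he he'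
  have h1 : ∀ y ∈ e.target, ∀ v w,
      alt E ((chartG e y).comp (mulI E)) ![v, w] = chartMetric e y (I • v) w := by
    intro y hy v w
    rw [alt_apply]
    change 2⁻¹ * (chartG e y (I • v) w - chartG e y (I • w) v) = chartG e y (I • v) w
    rw [chartG_symm e y (I • w), skew (B := chartG e y) (herm_chart hH he hy)]
    ring
  refine ⟨fun y => alt E ((chartG e y).comp (mulI E)), fun z hz => ?_⟩
  have hd : DifferentiableAt ℝ (fun y => alt E ((chartG e y).comp (mulI E))) z :=
    (alt E).differentiableAt.comp z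
      ((((contDiffOn_chartG he').contDiffAt (e.open_target.mem_nhds hz)).differentiableAt
        (by simp)).clm_comp (differentiableAt_const _))
  refine ⟨hd, ?_, fun v w => by rw [h1 z hz, omega_chart he hz]⟩
  ext V
  have hV : V = ![V 0, V 1, V 2] := by
    funext i
    fin_cases i <;> rfl
  have hx := e.map_target hz
  have hc := isChris h he' hx
  rw [e.right_inv hz] at hc
  rw [hV, d_eta he' hz hd h1]
  exact closed_of_par (herm_chart hH he hz) (symm_A he' hz) (chris_A he' hz hc)
    (gam_I hP he hx) _ _ _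

theorem isKahler (h : IsLeviCivita cov) (hH : Hermitian E M) (hC : Closed E M) :
    IsKahler E M := by
  intro e he z hz
  have hx := e.map_target hz
  have hc := isChris h (mem_maximalAtlas_real he) hx
  rw [e.right_inv hz] at hc
  exact ⟨herm_chart hH he hz, _, hc, gam_I (par_of_cl h hH hC) he hx⟩

end

end Vale.Agent.P253K
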