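import Vale.Agent.P253K97.Sect
import Vale.Agent.P253L26.Rows
import Vale.Agent.P253Z.Stmt

/-! From the intrinsic hypotheses to the hypotheses in charts. -/

namespace Vale.Agent.P253K

open scoped Manifold ContDiff

variable {E : Type} [NormedAddCommGroup E] [NormedSpace ℂ E] [FiniteDimensional ℂ E]

theorem main {M : Type} [TopologicalSpace M] [T2Space M] [ConnectedSpace M]
    [ChartedSpace E M] [IsManifold 𝓘(ℂ, E) 1 M]
    (hy : ∀ (N : Type) [MetricSpace N] [ChartedSpace E N] [P253Z.Metr E N], P253Z.IsYau E N →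
      Nonempty (N ≃ₘ^1⟮𝓘(ℂ, E), 𝓘(ℂ, E)⟯ E)) :
    RealSmooth E M ∧ JChart E M ∧
    ∀ [RealSmooth E M] [Met E M] [SmoothMet E M],
      (∃ cov : Conn E M, IsLeviCivita cov) ∧
      ∀ cov : Conn E M, IsLeviCivita cov →
        (∀ cov' : Conn E M, IsLeviCivita cov' → Agree cov' cov) ∧
        (∃! Rm, IsCurv cov Rm) ∧
        (Hermitian E M → (Closed E M ↔ ParallelJ cov)) ∧
        ∀ Rm, IsCurv cov Rm → Hermitian E M → Closed E M →
          Complete E M → NoncompactSpace M → PosBisec Rm →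
          Nonempty (M ≃ₘ^1⟮𝓘(ℂ, E), 𝓘(ℂ, E)⟯ E) := by
  refine ⟨realSmooth, fun e he x hx v => chart_J he hx v, ?_⟩
  intro _ _ hs
  refine ⟨exists_lc, fun cov h => ⟨fun cov' h' Y => lc_unique h h' Y, curv_exu h, ?_⟩⟩
  obtain ⟨mM, rfl, rM⟩ := with_metric (E := E) (M := M)
  have hd : IsRiemannianManifold 𝓘(ℝ, E) M := ⟨rM⟩
  refine ⟨fun hH => ⟨par_of_cl h hH, cl_of_par h hH⟩, fun Rm hR hH hC hc hn hP => hy M ?_⟩
  exact
    { complex := inferInstance
      smooth := hs
      dist := hd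
      complete := complete_of hc
      connected := inferInstance
      noncompact := hn
      kahler := isKahler h hH hC
      pos := posBisec h hR hP }

end Vale.Agent.P253K
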