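import Vale.Agent.P253K97.Kah

/-! The curvature tensor in a chart. -/

set_option maxSynthPendingDepth 3
set_option linter.unusedSectionVars false

namespace Vale.Agent.P253K

open scoped Manifold ContDiff Topology
open Bundle Filter VectorField IsManifold Complex Vale.Agent.P211 Vale.Agent.P211.NN
  Vale.Agent.P211Z Vale.Agent.P253.Mfd

noncomputable section

variable {E : Type} [NormedAddCommGroup E] [NormedSpace ℂ E] [FiniteDimensional ℂ E]
  {M : Type} [MetricSpace M] [ChartedSpace E M]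
  [IsManifold 𝓘(ℂ, E) 1 M] [RealSmooth E M] [Met E M] [SmoothMet E M]
  {e : OpenPartialHomeomorph M E} {x : M} {z : E} {cov : Conn E M} {R : Four E M}

/-- first derivatives of the metric -/
def dG (e : OpenPartialHomeomorph M E) (u v w y : E) : ℝ :=
  fderiv ℝ (fun x => chartMetric e x v w) y u

theorem diff_dG (he : e ∈ maximalAtlas 𝓘(ℝ, E) ∞ M) (hz : z ∈ e.target) (u v w : E) :
    DifferentiableAt ℝ (dG e u v w) z :=
  (((cd_G he hz v w).fderiv_right (m := 1) (by norm_cast)).differentiableAt (by simp)).clm_apply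
    (differentiableAt_const u)

theorem dG_comm (e : OpenPartialHomeomorph M E) (u v w : E) : dG e u v w = dG e u w v := by
  have h : (fun y => chartMetric e y v w) = fun y => chartMetric e y w v :=
    funext fun y => chartG_symm e y v w
  unfold dG
  rw [h]

theorem dG_symm (he : e ∈ maximalAtlas 𝓘(ℝ, E) ∞ M) (hz : z ∈ e.target) (s u v w : E) :
    fderiv ℝ (dG e u v w) z s = fderiv ℝ (dG e s v w) z u := by
  have h : IsSymmSndFDerivAt ℝ (chartG e) z :=
    ((contDiffOn_chartG he).contDiffAt (e.open_target.mem_nhds hz)).isSymmSndFDerivAt (by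
      rw [minSmoothness_of_isRCLikeNormedField]
      norm_cast)
  unfold dG
  rw [fderiv2_chartMetric he hz, fderiv2_chartMetric he hz, h.eq]

/-- second covariant derivatives of coordinate fields -/
theorem second (h : IsLeviCivita cov) (he : e ∈ maximalAtlas 𝓘(ℝ, E) ∞ M) (hx : x ∈ e.source)
    {U V : Vec E M} {u v : E} (hU : ∀ᶠ y in 𝓝 x, U y = cf e u y)
    (hV : ∀ᶠ y in 𝓝 x, V y = cf e v y) (w s : E) :
    inner ℝ (cov (fun q => cov V q (U q)) x (cf e s x)) (cf e w x) =
      (fderiv ℝ (dG e u v w) (e x) s + fderiv ℝ (dG e v u w) (e x) s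
        - fderiv ℝ (dG e w u v) (e x) s) / 2
      - chartMetric e (e x) (gam cov e x u v) (gam cov e x s w) := by
  have hz := e.map_source hx
  have hN : Md (fun q => cov V q (U q)) x := VF.mdiff (nabVF cov h.smooth U V) x
  have h1 : mvfderiv 𝓘(ℝ, E) (fun y => inner ℝ (cov V y (U y)) (cf e w y)) x (cf e s x) =
      inner ℝ (cov (fun q => cov V q (U q)) x (cf e s x)) (cf e w x)
        + inner ℝ (cov V x (U x)) (cov (cf e w) x (cf e s x)) :=
    h.metric.mvfderiv_inner_eq (cf e s) hN (sm_cf he hx w).md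
  have h2 : ∀ᶠ y in 𝓝 x, cov V y (U y) = cov (cf e v) y (cf e u y) := by
    filter_upwards [e.open_source.mem_nhds hx, hU, hV.eventually_nhds] with y hy h3 h4
    rw [cov_congr (sm_cf he hy v).md h4, h3]
  have h3 := ((((diff_dG he hz u v w).hasFDerivAt.add (diff_dG he hz v u w).hasFDerivAt).sub
    (diff_dG he hz w u v).hasFDerivAt).const_mul (2⁻¹ : ℝ))
  have h4 := d_cf he hx (f := fun y => inner ℝ (cov V y (U y)) (cf e w y)) h3.differentiableAt
    (by
      filter_upwards [e.open_source.mem_nhds hx, h2] with y hy h5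
      have h6 := koszul_cf h he hy u v w
      simp only [Pi.sub_apply, Pi.add_apply, dG]
      rw [h5, ← h6]
      ring) s
  rw [h1, h3.fderiv, h2.self_of_nhds, ← cf_gam he hx, ← cf_gam he hx, inner_cf he hx] at h4
  simp only [smul_apply, sub_apply, add_apply, smul_eq_mul] at h4
  linarith

theorem gam_symm (h : IsLeviCivita cov) (he : e ∈ maximalAtlas 𝓘(ℝ, E) ∞ M) (hx : x ∈ e.source)
    (u v : E) : gam cov e x u v = gam cov e x v u := by
  have h1 := (CovariantDerivative.torsion_eq_zero_iff _).1 h.torsion (sm_cf he hx u).md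
    (sm_cf he hx v).md
  rw [cf_bracket he hx, sub_eq_zero] at h1
  unfold gam
  rw [h1]

theorem rm_eq (h : IsLeviCivita cov) (hR : IsCurv cov R) (he : e ∈ maximalAtlas 𝓘(ℝ, E) ∞ M)
    (hx : x ∈ e.source) (a b : E) :
    R x (cf e a x) (cf e b x) (cf e b x) (cf e a x) = sectNum e (e x) (gam cov e x) a b := by
  have hz := e.map_source hx
  obtain ⟨A, hA⟩ := exists_cf he hx a
  obtain ⟨B, hB⟩ := exists_cf he hx b
  have h1 := hR A B B A x
  unfold ev curv at h1
  have h2 : mlieBracket 𝓘(ℝ, E) A B x = 0 :=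
    (EventuallyEq.mlieBracket_vectorField_eq hA hB).trans (cf_bracket he hx a b)
  rw [h2, map_zero, sub_zero, inner_sub_left, hA.self_of_nhds, hB.self_of_nhds,
    second h he hx hB hB, second h he hx hA hB, dG_comm e b b a, dG_comm e a b a,
    dG_symm he hz a b a b, gam_symm h he hx b a] at h1
  rw [h1]
  have h3 : chartMetric e (e x) (gam cov e x b b) (gam cov e x a a)
      = chartMetric e (e x) (gam cov e x a a) (gam cov e x b b) := chartG_symm e _ _ _
  rw [h3]
  change _ = -(fderiv ℝ (dG e a b b) (e x) a + fderiv ℝ (dG e b a a) (e x) b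
    - 2 * fderiv ℝ (dG e a a b) (e x) b) / 2 + _ - _
  ring

theorem posBisec (h : IsLeviCivita cov) (hR : IsCurv cov R) (hP : PosBisec R) (x : M) :
    PosBisectionalAt E x := by
  intro e he hx
  have he' := mem_maximalAtlas_real he
  refine ⟨_, isChris h he' hx, fun u v hu hv => ?_⟩
  rw [← rm_eq h hR he' hx, ← rm_eq h hR he' hx, cf_I he hx]
  have hn : ∀ w : E, w ≠ 0 → 0 < ‖cf e w x‖ := fun w hw => norm_pos_iff.2 fun h0 => hw (by
    rw [← dif_cf he' hx w, h0, map_zero]
    rfl)
  have h1 : ∀ w : Tan E x, 0 < ‖w‖ → ‖‖w‖⁻¹ • w‖ = 1 := fun w hw => by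
    rw [norm_smul, norm_inv, norm_norm, inv_mul_cancel₀ hw.ne']
  have h2 := hP x _ _ (h1 _ (hn u hu)) (h1 _ (hn v hv))
  simp only [ev, J_smul, map_smul, LinearMap.smul_apply, smul_eq_mul] at h2
  have h3 := inv_pos.2 (hn u hu)
  have h4 := inv_pos.2 (hn v hv)
  rw [← mul_add, ← mul_add, ← mul_add, ← mul_add] at h2
  rwa [mul_pos_iff_of_pos_left h3, mul_pos_iff_of_pos_left h4, mul_pos_iff_of_pos_left h4,
    mul_pos_iff_of_pos_left h3] at h2

end

end Vale.Agent.P253K
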